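import Vale.Agent.P062.Cert.R0C0

/-! Assembly of a certificate (generated). -/

namespace Vale.Agent.P062.R0

/-- The root state. -/
def root : ℕ × ℕ := (1989292945639146568621528992587283360401824603189390869761855907572640293822773971648515, 8826058707018362510879128272069426347161796482243232769272226492118007865145359399853424281388735260556514237049461708)

theorem good_root : Good root := by
  refine good0 root ?_
  decide +kernel

end Vale.Agent.P062.R0
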