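import Vale.Agent.P062.Cert.R1C0
import Vale.Agent.P062.Cert.R1C1

/-! Assembly of a certificate (generated). -/

namespace Vale.Agent.P062.R1

theorem upTo1 : AllGood (e1.map Prod.snd) := good1 good0

/-- The root state. -/
def root : ℕ × ℕ := (1989292945639146568621528992587283360401824603189390869761855907572640293822773971648513, 7602153412794714757458626773238662598416253683027472340067094399971253158320940186698546706502516062406515990793733964548175)

theorem good_root : Good root := by
  refine upTo1 root ?_
  decide +kernel

end Vale.Agent.P062.R1
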