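import Vale.Agent.P062.Cert.R2C0

/-! Assembly of a certificate (generated). -/

namespace Vale.Agent.P062.R2

/-- The root state. -/
def root : ℕ × ℕ := (1989292945639146568621528992587283360401824603189390869761855907572637988120502246309888, 9456500425818686813774577192625129207377977064827968504915669588409969243514475898816908072336279414555562821484013989)

theorem good_root : Good root := by
  refine good0 root ?_
  decide +kernel

end Vale.Agent.P062.R2
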