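import Vale.Agent.P062.Cert.R3C0

/-! Assembly of a certificate (generated). -/

namespace Vale.Agent.P062.R3

/-- The root state. -/
def root : ℕ × ℕ := (1989292945639146568621528992587283360401824603189390869761855907572638564440517061378048, 9469397014097830844094118848259976784878244343037417986070666114750356913308100613843903057998926412501444716236)

theorem good_root : Good root := by
  refine good0 root ?_
  decide +kernel

end Vale.Agent.P062.R3
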