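import Vale.Agent.P062.Cert.R4C0

/-! Assembly of a certificate (generated). -/

namespace Vale.Agent.P062.R4

/-- The root state. -/
def root : ℕ × ℕ := (1989292945639146568621528992587283360401824603189390869761855907572637988120502246309888, 9456635100681249383140392947996679696692867458988085686727081465240805525809080958835379923968765847746950068953411108)

theorem good_root : Good root := by
  refine good0 root ?_
  decide +kernel

end Vale.Agent.P062.R4
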