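import Vale.Agent.P062.Cert.R5C0
import Vale.Agent.P062.Cert.R5C1
import Vale.Agent.P062.Cert.R5C2
import Vale.Agent.P062.Cert.R5C3

/-! Assembly of a certificate (generated). -/

namespace Vale.Agent.P062.R5

theorem upTo1 : AllGood (e1.map Prod.snd) := good1 good0

theorem upTo2 : AllGood (e2.map Prod.snd) := good2 upTo1

theorem upTo3 : AllGood (e3.map Prod.snd) := good3 upTo2

/-- The root state. -/
def root : ℕ × ℕ := (1989292945639146568621528992587283360401824603189390869761855907572637988120502246309888, 86647167451398921284266759698992072286524249745329862991671601447700594132536815994285269717938533674282590084957174170396112709)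

theorem good_root : Good root := by
  refine upTo3 root ?_
  decide +kernel

end Vale.Agent.P062.R5
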