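import Vale.Agent.P062.Cert.R7C0

/-! Assembly of a certificate (generated). -/

namespace Vale.Agent.P062.R7

/-- The root state. -/
def root : ℕ × ℕ := (1989292945639146568621528992587283360401824603189390869761855907572637988120502246309888, 28408044401551026032260462796148765305980463832387604409418198627681373277777260662434535263224939937093272989006)

theorem good_root : Good root := by
  refine good0 root ?_
  decide +kernel

end Vale.Agent.P062.R7
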