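import Vale.Agent.P062.Cert.R8C0
import Vale.Agent.P062.Cert.R8C1
import Vale.Agent.P062.Cert.R8C2
import Vale.Agent.P062.Cert.R8C3
import Vale.Agent.P062.Cert.R8C4
import Vale.Agent.P062.Cert.R8C5
import Vale.Agent.P062.Cert.R8C6
import Vale.Agent.P062.Cert.R8C7
import Vale.Agent.P062.Cert.R8C8
import Vale.Agent.P062.Cert.R8C9
import Vale.Agent.P062.Cert.R8C10
import Vale.Agent.P062.Cert.R8C11
import Vale.Agent.P062.Cert.R8C12
import Vale.Agent.P062.Cert.R8C13
import Vale.Agent.P062.Cert.R8C14
import Vale.Agent.P062.Cert.R8C15
import Vale.Agent.P062.Cert.R8C16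
import Vale.Agent.P062.Cert.R8C17
import Vale.Agent.P062.Cert.R8C18
import Vale.Agent.P062.Cert.R8C19
import Vale.Agent.P062.Cert.R8C20
import Vale.Agent.P062.Cert.R8C21
import Vale.Agent.P062.Cert.R8C22
import Vale.Agent.P062.Cert.R8C23
import Vale.Agent.P062.Cert.R8C24
import Vale.Agent.P062.Cert.R8C25
import Vale.Agent.P062.Cert.R8C26
import Vale.Agent.P062.Cert.R8C27

/-! Assembly of a certificate (generated). -/

namespace Vale.Agent.P062.R8

theorem upTo1 : AllGood (e1.map Prod.snd) := good1 good0

theorem upTo2 : AllGood (e2.map Prod.snd) := good2 upTo1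

theorem upTo3 : AllGood (e3.map Prod.snd) := good3 upTo2

theorem upTo4 : AllGood (e4.map Prod.snd) := good4 upTo3

theorem upTo5 : AllGood (e5.map Prod.snd) := good5 upTo4

theorem upTo6 : AllGood (e6.map Prod.snd) := good6 upTo5

theorem upTo7 : AllGood (e7.map Prod.snd) := good7 upTo6

theorem upTo8 : AllGood (e8.map Prod.snd) := good8 upTo7

theorem upTo9 : AllGood (e9.map Prod.snd) := good9 upTo8

theorem upTo10 : AllGood (e10.map Prod.snd) := good10 upTo9

theorem upTo11 : AllGood (e11.map Prod.snd) := good11 upTo10

theorem upTo12 : AllGood (e12.map Prod.snd) := good12 upTo11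

theorem upTo13 : AllGood (e13.map Prod.snd) := good13 upTo12

theorem upTo14 : AllGood (e14.map Prod.snd) := good14 upTo13

theorem upTo15 : AllGood (e15.map Prod.snd) := good15 upTo14

theorem upTo16 : AllGood (e16.map Prod.snd) := good16 upTo15

theorem upTo17 : AllGood (e17.map Prod.snd) := good17 upTo16

theorem upTo18 : AllGood (e18.map Prod.snd) := good18 upTo17

theorem upTo19 : AllGood (e19.map Prod.snd) := good19 upTo18

theorem upTo20 : AllGood (e20.map Prod.snd) := good20 upTo19

theorem upTo21 : AllGood (e21.map Prod.snd) := good21 upTo20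

theorem upTo22 : AllGood (e22.map Prod.snd) := good22 upTo21

theorem upTo23 : AllGood (e23.map Prod.snd) := good23 upTo22

theorem upTo24 : AllGood (e24.map Prod.snd) := good24 upTo23

theorem upTo25 : AllGood (e25.map Prod.snd) := good25 upTo24

theorem upTo26 : AllGood (e26.map Prod.snd) := good26 upTo25

theorem upTo27 : AllGood (e27.map Prod.snd) := good27 upTo26

/-- The root state. -/
def root : ℕ × ℕ := (1989292945639146568621528992587283360401824603189390869761855907572640293822774038757375, 41430162100262952605121442889039223800712840469565447798521672681077635493509015316297148769118480269227004016118976430096853401724136443)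

theorem good_root : Good root := by
  refine upTo27 root ?_
  decide +kernel

end Vale.Agent.P062.R8
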