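import Vale.Agent.P062.Check

/-! Interface states of a certificate (generated). -/

namespace Vale.Agent.P062.R0

noncomputable def e0 : List (ℕ × ℕ × ℕ) := [
  (0, 1989292945639146568621528992587283360401824603189390869761855907572640293822773971648515, 8826058707018362510879128272069426347161796482243232769272226492118007865145359399853424281388735260556514237049461708)]

end Vale.Agent.P062.R0
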