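import Vale.Agent.P062.Check

/-! Interface states of a certificate (generated). -/

namespace Vale.Agent.P062.R3

noncomputable def e0 : List (ℕ × ℕ × ℕ) := [
  (0, 1989292945639146568621528992587283360401824603189390869761855907572638564440517061378048, 9469397014097830844094118848259976784878244343037417986070666114750356913308100613843903057998926412501444716236)]

end Vale.Agent.P062.R3
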