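import Vale.Agent.P062.Check

/-! Interface states of a certificate (generated). -/

namespace Vale.Agent.P062.R7

noncomputable def e0 : List (ℕ × ℕ × ℕ) := [
  (0, 1989292945639146568621528992587283360401824603189390869761855907572637988120502246309888, 28408044401551026032260462796148765305980463832387604409418198627681373277777260662434535263224939937093272989006)]

end Vale.Agent.P062.R7
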